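import Vale.Agent.P139.H539.Big4
import Vale.Agent.P139.H772.EW6

/-!
# E.big, upper side, in the flux form
-/

noncomputable section

open Complex ComplexConjugate

namespace Vale.Agent.P139.H539

open Vale.Agent.P139.H772
open Vale.Agent.P139.H312 (Fl)

/-- E.big.B in the form of `H312/I3.lean`. -/
theorem fl_upper {l : ℕ} {w R : ℝ} {lam : ℂ} (hR : 0 < R) (hρ : 266 / 100 ≤ R ^ 2 / 4)
    (h0 : 0 ≤ lam.re) (hν : 567 / 100 ≤ w - lam.im) (hν4 : l = 4 → 63 / 10 ≤ w - lam.im)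
    (hν5 : 5 ≤ l → 7 / 100 * (l + 11 / 2) ^ 2 ≤ w - lam.im) : Fl l w R lam :=
  (bigIneq_iff_Fl hR).1 (big_upper hρ h0 hν hν4 hν5)

end Vale.Agent.P139.H539
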