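import Vale.Agent.P139.H539.Half2

/-!
# Half steps for large angular degree
-/

noncomputable section

open MeasureTheory Set Filter Topology Complex ComplexConjugate

namespace Vale.Agent.P139.H539

open Vale.Agent.P139.KU (S J aE aE_re)
open Vale.Agent.P139.H772
open Vale.Agent.P139.H66 (q)

/-- lower bounds for the real parts -/
def fH3 (j : ℕ) (u : ℝ) : ℝ := if j = 0 then u else 4 / 5 * (u + 3)

/-- (H3): `l ≥ 23`, `ν ≤ 0.06 (l + 11/2)²`. -/
theorem big_lower_H3 {l : ℕ} (hl : 23 ≤ l) {w ρ : ℝ} {lam : ℂ} (hρ0 : 0 < ρ)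
    (hρ : ρ ≤ 267 / 100) (h0 : 0 ≤ lam.re) (hν : w - lam.im ≤ 6 / 100 * (l + 11 / 2) ^ 2) :
    BigIneq l w ρ lam := by
  have hl23 : (23 : ℝ) ≤ l := by exact_mod_cast hl
  refine big_of_seq hρ0 h0 (by omega) fH3 (fun _ u => 12 / 25 * (u + 3) ^ 2 + 153 / 50)
    (fun u => by simp [fH3]) ?_
  intro _ n hn1 hn6 u hu
  have hn : (n : ℝ) ≤ 6 := by exact_mod_cast hn6
  have hu1 : 45 / 4 ≤ u := by rw [hu]; linarith
  have hν2 : w - lam.im ≤ 6 / 25 * (u + 3) ^ 2 := by
    have h1 : ((l : ℝ) + 11 / 2) / 2 ≤ u + 3 := by rw [hu]; linarith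
    have h2 : (((l : ℝ) + 11 / 2) / 2) ^ 2 ≤ (u + 3) ^ 2 := by
      apply pow_le_pow_left₀ _ h1
      positivity
    nlinarith
  have hFpos : 0 < 12 / 25 * (u + 3) ^ 2 + 153 / 50 := by positivity
  refine ⟨fun j _ => ?_, ?_, ?_⟩
  · unfold fH3
    split_ifs
    · linarith
    · linarith
  · intro j hj γ hγ0 hγ
    have hj5 : (j : ℝ) ≤ 5 := by exact_mod_cast (show j ≤ 5 by omega)
    have hγ2 : γ ^ 2 ≤ (u + 3 + 3) ^ 2 := by
      apply pow_le_pow_left₀ hγ0
      linarith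
    have h1 : Real.sqrt (γ ^ 2 + (w - lam.im) ^ 2) ≤
        12 / 25 * (u + 3) ^ 2 + 153 / 50 - (w - lam.im) := by
      apply Real.sqrt_le_iff.2
      constructor
      · nlinarith [sq_nonneg (u + 3)]
      · have h3 : (u + 3 + 3) ^ 2 ≤ (12 / 25 * (u + 3) ^ 2 + 153 / 50) * (153 / 50) := by
          nlinarith
        have h4 : (12 / 25 * (u + 3) ^ 2 + 153 / 50) * (153 / 50) ≤
            (12 / 25 * (u + 3) ^ 2 + 153 / 50) *
              (12 / 25 * (u + 3) ^ 2 + 153 / 50 - 2 * (w - lam.im)) := by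
          apply mul_le_mul_of_nonneg_left _ hFpos.le
          linarith
        nlinarith
    linarith
  · intro j hj
    have hj5 : j ≤ 5 := by omega
    have hρF : ρ * (12 / 25 * (u + 3) ^ 2 + 153 / 50) ≤
        267 / 100 * (12 / 25 * (u + 3) ^ 2 + 153 / 50) := mul_le_mul_of_nonneg_right hρ hFpos.le
    rcases Nat.eq_zero_or_pos j with h | h
    · subst h
      have e1 : fH3 0 u = u := by simp [fH3]
      have e2 : fH3 (0 + 1) u = 4 / 5 * (u + 3) := by simp [fH3]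
      rw [e1, e2]
      have h1 : ρ * (12 / 25 * (u + 3) ^ 2 + 153 / 50) / (2 * u) ≤
          2 * u + 1 - 4 / 5 * (u + 3) := by
        rw [div_le_iff₀ (by linarith)]
        nlinarith
      push_cast
      linarith
    · have e1 : fH3 j u = 4 / 5 * (u + 3) := by simp [fH3, h.ne']
      have e2 : fH3 (j + 1) u = 4 / 5 * (u + 3) := by simp [fH3]
      rw [e1, e2]
      have hj1 : (1 : ℝ) ≤ j := by exact_mod_cast h
      have h1 : ρ * (12 / 25 * (u + 3) ^ 2 + 153 / 50) / (2 * (4 / 5 * (u + 3))) ≤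
          2 * u + 2 - 4 / 5 * (u + 3) := by
        rw [div_le_iff₀ (by linarith)]
        nlinarith
      linarith

end Vale.Agent.P139.H539
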