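import Vale.Agent.P139.H539.Big6
import Vale.Agent.P139.H539.Half3
import Vale.Agent.P139.H772.EW6
import Vale.Agent.P139.H539.Big5

/-!
# E.big: flux forms of the half step results
-/

noncomputable section

open Complex ComplexConjugate

namespace Vale.Agent.P139.H539

open Vale.Agent.P139.H772
open Vale.Agent.P139.H312 (Fl)

/-- `l ≥ 23`: no restriction on `Im lam`. -/
theorem big_23 {l : ℕ} (hl : 23 ≤ l) {w ρ : ℝ} {lam : ℂ} (hρ : 266 / 100 ≤ ρ)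
    (hρ2 : ρ ≤ 267 / 100) (h0 : 0 ≤ lam.re) : BigIneq l w ρ lam := by
  rcases le_total (w - lam.im) (6 / 100 * (l + 11 / 2) ^ 2) with h | h
  · exact big_lower_H3 hl (by linarith) hρ2 h0 h
  · exact big_upper_23 hl hρ h0 h

theorem fl_23 {l : ℕ} (hl : 23 ≤ l) {w R : ℝ} {lam : ℂ} (hR : 0 < R)
    (hρ : 266 / 100 ≤ R ^ 2 / 4) (hρ2 : R ^ 2 / 4 ≤ 267 / 100) (h0 : 0 ≤ lam.re) : Fl l w R lam :=
  (bigIneq_iff_Fl hR).1 (big_23 hl hρ hρ2 h0)

/-- (H1) -/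
theorem fl_H1 {l : ℕ} (hl : 4 ≤ l) {w R : ℝ} {lam : ℂ} (hR : 0 < R)
    (hρ2 : R ^ 2 / 4 ≤ 267 / 100) (h0 : 0 ≤ lam.re) (hν : w - lam.im ≤ 0) : Fl l w R lam :=
  (bigIneq_iff_Fl hR).1 (big_lower_H1 hl (by positivity) hρ2 h0 hν)

/-- (H2) -/
theorem fl_H2 {l : ℕ} (hl : 1 ≤ l) {w R : ℝ} {lam : ℂ} (hR : 0 < R)
    (hρ2 : R ^ 2 / 4 ≤ 267 / 100) (h0 : 0 ≤ lam.re) (hν : w - lam.im ≤ -(43 / 10)) :
    Fl l w R lam :=
  (bigIneq_iff_Fl hR).1 (big_lower_H2 hl (by positivity) hρ2 h0 hν)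

/-- Everything except `l = 0`, `Im lam > 0`, and the compact sets of `l = 4, ..., 22`. -/
theorem fl_big {l : ℕ} {w R : ℝ} {lam : ℂ} (hR : 0 < R) (hρ : 266 / 100 ≤ R ^ 2 / 4)
    (hρ2 : R ^ 2 / 4 ≤ 267 / 100) (hw : 67 / 100 ≤ w) (hw2 : w ≤ 7 / 10) (h0 : 0 ≤ lam.re)
    (hreg : 4 ≤ l ∨ 5 ≤ |lam.im|)
    (htail : l = 0 → 5 ≤ lam.im → Fl l w R lam)
    (hbox : 4 ≤ l → l ≤ 22 → 0 ≤ w - lam.im → w - lam.im ≤ 7 / 100 * (l + 11 / 2) ^ 2 →
      Fl l w R lam) : Fl l w R lam := by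
  rcases Nat.lt_or_ge l 4 with hl | hl
  · have h5 : 5 ≤ |lam.im| := by
      rcases hreg with h | h
      · omega
      · exact h
    rcases le_abs.1 h5 with h | h
    · rcases Nat.eq_zero_or_pos l with h1 | h1
      · exact htail h1 h
      · exact fl_H2 h1 hR hρ2 h0 (by linarith)
    · exact fl_upper hR hρ h0 (by linarith) (fun h => by omega) (fun h => by omega)
  · rcases Nat.lt_or_ge l 23 with hl2 | hl2
    · rcases le_total (w - lam.im) 0 with h | h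
      · exact fl_H1 hl hR hρ2 h0 h
      · rcases le_total (w - lam.im) (7 / 100 * (l + 11 / 2) ^ 2) with h2 | h2
        · exact hbox hl (by omega) h h2
        · have hl4 : (4 : ℝ) ≤ l := by exact_mod_cast hl
          refine fl_upper hR hρ h0 (by nlinarith) (fun h3 => ?_) (fun _ => h2)
          nlinarith
    · exact fl_23 hl2 hR hρ hρ2 h0

end Vale.Agent.P139.H539
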