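import Mathlib.Tactic

/-!
# Real inequalities for the upper side of the outer region
-/

namespace Vale.Agent.P139.H539

/-- `G`. -/
def Gf (H ν s : ℝ) : ℝ := H ^ 2 + 4 * ν ^ 2 - 4 * s ^ 2

/-- The imaginary part in one step. -/
lemma z_step {H ν s N P Q Z' κ κ' δ : ℝ} (hN : 0 < N) (hκ : 0 < κ) (hκ' : κ' < 2)
    (hQ : κ * N ≤ Q) (hE : H ^ 2 + 4 * ν ^ 2 ≤ δ * N ^ 2) (hδ : δ ≤ (2 - κ') * κ)
    (h : (N - Z') * (P ^ 2 + Q ^ 2) = Gf H ν s * Q + 8 * ν * s * P) : κ' * N ≤ N + Z' := by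
  have hκN : 0 < κ * N := mul_pos hκ hN
  have hQ0 : 0 < Q := by linarith
  have hD : 0 < P ^ 2 + Q ^ 2 := by positivity
  have h1 : (N - Z') * Q * (P ^ 2 + Q ^ 2) ≤ (H ^ 2 + 4 * ν ^ 2) * (P ^ 2 + Q ^ 2) := by
    have e : (N - Z') * Q * (P ^ 2 + Q ^ 2) = (H ^ 2 + 4 * ν ^ 2) * (P ^ 2 + Q ^ 2) -
        (H * P) ^ 2 - (2 * ν * P - 2 * s * Q) ^ 2 := by
      have e1 : (N - Z') * Q * (P ^ 2 + Q ^ 2) = Q * ((N - Z') * (P ^ 2 + Q ^ 2)) := by ring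
      rw [e1, h]
      unfold Gf
      ring
    rw [e]
    nlinarith [sq_nonneg (H * P), sq_nonneg (2 * ν * P - 2 * s * Q)]
  have h2 : (N - Z') * Q ≤ H ^ 2 + 4 * ν ^ 2 := le_of_mul_le_mul_right h1 hD
  by_contra hc
  push Not at hc
  have h3 : (2 - κ') * N < N - Z' := by linarith
  have h4 : (2 - κ') * N * (κ * N) < (N - Z') * Q := by
    have p1 : 0 < (2 - κ') * N := mul_pos (by linarith) hN
    calc (2 - κ') * N * (κ * N) ≤ (2 - κ') * N * Q := mul_le_mul_of_nonneg_left hQ p1.le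
      _ < (N - Z') * Q := mul_lt_mul_of_pos_right h3 hQ0
  have h5 : δ * N ^ 2 ≤ (2 - κ') * N * (κ * N) := by
    have : δ * N ^ 2 ≤ (2 - κ') * κ * N ^ 2 := mul_le_mul_of_nonneg_right hδ (sq_nonneg N)
    linarith [this, show (2 - κ') * N * (κ * N) = (2 - κ') * κ * N ^ 2 by ring]
  linarith

/-- A quadratic that increases from `-p` on. -/
lemma quad_lower {L G P p : ℝ} (hL : 0 ≤ L) (hp : -p ≤ P) (hG : 2 * L * p ≤ G) :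
    L * p ^ 2 - G * p ≤ L * P ^ 2 + G * P := by
  have h1 : 0 ≤ P + p := by linarith
  have h2 : 0 ≤ L * (P - p) + G := by nlinarith
  nlinarith [mul_nonneg h1 h2]

/-- The real part in one step. -/
lemma x_step {H ν e P Q Q₀ X' t p : ℝ} (hν : 0 ≤ ν) (he : 0 ≤ e) (ht : 0 ≤ t) (hQ₀ : 0 < Q₀)
    (hQ : Q₀ ≤ Q) (hp : -p ≤ P) (hG : 2 * t * p ≤ Gf H ν (-e))
    (hm : Gf H ν (-e) * p ≤ t * (p ^ 2 + Q₀ ^ 2) + 8 * ν * e * Q₀)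
    (h : (X' - 2 * (-e)) * (P ^ 2 + Q ^ 2) = Gf H ν (-e) * P - 8 * ν * (-e) * Q) :
    -(2 * e + t) ≤ X' := by
  have hD : 0 < P ^ 2 + Q ^ 2 := by nlinarith [sq_nonneg P]
  have h1 := quad_lower ht hp hG
  have h2 : t * Q₀ ^ 2 ≤ t * Q ^ 2 := by
    apply mul_le_mul_of_nonneg_left _ ht
    nlinarith
  have h3 : 8 * ν * e * Q₀ ≤ 8 * ν * e * Q := mul_le_mul_of_nonneg_left hQ (by positivity)
  have h4 : 0 ≤ (X' + (2 * e + t)) * (P ^ 2 + Q ^ 2) := by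
    have : (X' + (2 * e + t)) * (P ^ 2 + Q ^ 2) =
        (X' - 2 * (-e)) * (P ^ 2 + Q ^ 2) + t * (P ^ 2 + Q ^ 2) := by ring
    rw [this, h]
    nlinarith
  have h5 := nonneg_of_mul_nonneg_left h4 hD
  linarith

/-- The final quantity. -/
lemma final_step {H ν e P Q Q₀ L p : ℝ} (hν : 0 ≤ ν) (he : 0 ≤ e) (hL : 0 ≤ L) (hQ₀ : 0 < Q₀)
    (hQ : Q₀ ≤ Q) (hp : -p ≤ P) (hG : 2 * L * p ≤ Gf H ν (-e))
    (hm : Gf H ν (-e) * p < L * (p ^ 2 + Q₀ ^ 2) + 8 * ν * e * Q₀) :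
    0 < L * (P ^ 2 + Q ^ 2) + Gf H ν (-e) * P + 8 * ν * e * Q := by
  have h1 := quad_lower hL hp hG
  have h2 : L * Q₀ ^ 2 ≤ L * Q ^ 2 := by
    apply mul_le_mul_of_nonneg_left _ hL
    nlinarith
  have h3 : 8 * ν * e * Q₀ ≤ 8 * ν * e * Q := mul_le_mul_of_nonneg_left hQ (by positivity)
  nlinarith

/-! ### Polynomial inequalities, `l ≤ 2` -/

section small

variable {H ν ρ : ℝ}

lemma a_E (hH : H ≤ 15 / 2) (hH0 : 0 ≤ H) (hν : 567 / 100 ≤ ν) (hρ : 266 / 100 ≤ ρ) :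
    H ^ 2 + 4 * ν ^ 2 ≤ 1 * (2 * ν + ρ) ^ 2 := by nlinarith

lemma a_X2 {e : ℝ} (hH : H ≤ 15 / 2) (hH0 : 0 ≤ H) (hν : 567 / 100 ≤ ν) (hρ : 266 / 100 ≤ ρ)
    (he : 0 ≤ e) :
    Gf H ν (-e) * (2 * e) ≤ 0 * ((2 * e) ^ 2 + (2 * ν + ρ) ^ 2) + 8 * ν * e * (2 * ν + ρ) := by
  unfold Gf
  have h1 : H ^ 2 + 4 * ν ^ 2 - 4 * e ^ 2 ≤ 4 * ν * (2 * ν + ρ) := by nlinarith
  nlinarith

lemma a_X1 {e e' : ℝ} (hH : H ≤ 15 / 2) (hH0 : 0 ≤ H) (hν : 567 / 100 ≤ ν) (hρ : 266 / 100 ≤ ρ)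
    (he : 0 ≤ e) (hee : 7 * e' ≤ 3 * e) (he2 : e ≤ 7 / 4) :
    Gf H ν (-e) * (2 * (e + e')) ≤ 0 * ((2 * (e + e')) ^ 2 + (2 * ν + ρ) ^ 2) +
      8 * ν * e * (2 * ν + ρ) := by
  unfold Gf
  have h1 : (H ^ 2 + 4 * ν ^ 2 - 4 * e ^ 2) * 10 ≤ 28 * ν * (2 * ν + ρ) := by nlinarith
  have h2 : 0 ≤ H ^ 2 + 4 * ν ^ 2 - 4 * e ^ 2 := by nlinarith
  have h3 : 7 * (e + e') ≤ 10 * e := by linarith
  have h4 : (H ^ 2 + 4 * ν ^ 2 - 4 * e ^ 2) * (7 * (e + e')) ≤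
      (H ^ 2 + 4 * ν ^ 2 - 4 * e ^ 2) * (10 * e) := mul_le_mul_of_nonneg_left h3 h2
  have h5 := mul_le_mul_of_nonneg_right h1 he
  simp only [neg_sq]
  nlinarith

lemma a_F {e e' L P Q : ℝ} (hH : H ≤ 15 / 2) (hH0 : 0 ≤ H) (hν : 567 / 100 ≤ ν)
    (hρ : 266 / 100 ≤ ρ) (he : 0 < e) (hee : 11 * e' ≤ 7 * e) (he2 : e ≤ 11 / 4) (hL : 0 ≤ L)
    (hP : -(2 * (e + e')) ≤ P) (hQ : 2 * ν + ρ ≤ Q) :
    0 < L * (P ^ 2 + Q ^ 2) + Gf H ν (-e) * P + 8 * ν * e * Q := by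
  unfold Gf
  have h1 : (H ^ 2 + 4 * ν ^ 2 - 4 * e ^ 2) * 36 < 88 * ν * (2 * ν + ρ) := by nlinarith
  have h2 : 0 ≤ H ^ 2 + 4 * ν ^ 2 - 4 * e ^ 2 := by nlinarith
  have h3 : 11 * (2 * (e + e')) ≤ 36 * e := by linarith
  have h4 : (H ^ 2 + 4 * ν ^ 2 - 4 * e ^ 2) * (11 * (2 * (e + e'))) ≤
      (H ^ 2 + 4 * ν ^ 2 - 4 * e ^ 2) * (36 * e) := mul_le_mul_of_nonneg_left h3 h2
  have h5 := mul_lt_mul_of_pos_right h1 he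
  have h6 : (H ^ 2 + 4 * ν ^ 2 - 4 * e ^ 2) * (-(2 * (e + e'))) ≤
      (H ^ 2 + 4 * ν ^ 2 - 4 * e ^ 2) * P := mul_le_mul_of_nonneg_left hP h2
  have h7 : 8 * ν * e * (2 * ν + ρ) ≤ 8 * ν * e * Q :=
    mul_le_mul_of_nonneg_left hQ (by positivity)
  have h8 : 0 ≤ L * (P ^ 2 + Q ^ 2) := by positivity
  simp only [neg_sq]
  nlinarith

end small

/-! ### Polynomial inequalities, `l ≥ 3` -/

section large

variable {H ν ρ : ℝ}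

lemma b_E5 (hH : 21 / 2 ≤ H) (hν : 7 / 100 * H ^ 2 ≤ ν) (hρ : 266 / 100 ≤ ρ) :
    H ^ 2 + 4 * ν ^ 2 ≤ 107 / 100 * (2 * ν + ρ) ^ 2 := by
  have h1 : 77 / 10 ≤ ν := by nlinarith
  have h2 : H ^ 2 ≤ 100 / 7 * ν := by linarith
  have h3 : 100 / 7 * ν + 4 * ν ^ 2 ≤ 107 / 100 * (2 * ν + 266 / 100) ^ 2 := by nlinarith
  have h4 : (2 * ν + 266 / 100) ^ 2 ≤ (2 * ν + ρ) ^ 2 := by
    apply pow_le_pow_left₀ <;> linarith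
  linarith

lemma b_E4 (hH : H = 19 / 2) (hν : 63 / 10 ≤ ν) (hρ : 266 / 100 ≤ ρ) :
    H ^ 2 + 4 * ν ^ 2 ≤ 107 / 100 * (2 * ν + ρ) ^ 2 := by
  subst hH
  nlinarith

lemma b_E3 (hH : H = 17 / 2) (hν : 567 / 100 ≤ ν) (hρ : 266 / 100 ≤ ρ) :
    H ^ 2 + 4 * ν ^ 2 ≤ 107 / 100 * (2 * ν + ρ) ^ 2 := by
  subst hH
  nlinarith

lemma b_X2 {e : ℝ} (hν : 567 / 100 ≤ ν) (hνH : 698 / 10000 * H ^ 2 ≤ ν) (hρ : 266 / 100 ≤ ρ)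
    (he : 0 ≤ e) :
    Gf H ν (-e) * (2 * e) ≤ 0 * ((2 * e) ^ 2 + (93 / 100 * (2 * ν + ρ)) ^ 2) +
      8 * ν * e * (93 / 100 * (2 * ν + ρ)) := by
  unfold Gf
  have h1 : H ^ 2 + 4 * ν ^ 2 - 4 * e ^ 2 ≤ 4 * ν * (93 / 100 * (2 * ν + ρ)) := by nlinarith
  nlinarith

lemma b_X1a {e : ℝ} (hν : 567 / 100 ≤ ν) (hνH : 698 / 10000 * H ^ 2 ≤ ν) (hρ : 266 / 100 ≤ ρ)
    (he : 0 ≤ e) :
    Gf H ν (-e) * (2 * e) ≤ 1 / 2 * ((2 * e) ^ 2 + (849 / 1000 * (2 * ν + ρ)) ^ 2) +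
      8 * ν * e * (849 / 1000 * (2 * ν + ρ)) := by
  unfold Gf
  have h1 : H ^ 2 + 4 * ν ^ 2 - 4 * e ^ 2 ≤ 4 * ν * (849 / 1000 * (2 * ν + ρ)) := by nlinarith
  nlinarith [sq_nonneg (849 / 1000 * (2 * ν + ρ)), sq_nonneg (2 * e)]

lemma b_X1b {e : ℝ} (hν : 567 / 100 ≤ ν) (hνH : 698 / 10000 * H ^ 2 ≤ ν) (hρ : 266 / 100 ≤ ρ)
    (he : 1 ≤ e) (he2 : e ≤ 7 / 4) :
    Gf H ν (-e) * (4 * e - 2) ≤ 1 / 2 * ((4 * e - 2) ^ 2 + (849 / 1000 * (2 * ν + ρ)) ^ 2) +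
      8 * ν * e * (849 / 1000 * (2 * ν + ρ)) := by
  unfold Gf
  have h1 : (2 * ν + 266 / 100) ^ 2 ≤ (2 * ν + ρ) ^ 2 := by
    apply pow_le_pow_left₀ <;> linarith
  have h2 : ν * e * (2 * ν + 266 / 100) ≤ ν * e * (2 * ν + ρ) := by
    apply mul_le_mul_of_nonneg_left (by linarith) (by positivity)
  have h3 : H ^ 2 * (4 * e - 2) ≤ 10000 / 698 * ν * (4 * e - 2) := by
    apply mul_le_mul_of_nonneg_right (by linarith) (by linarith)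
  have h4 : 10000 / 698 * ν * (4 * e - 2) + (4 * ν ^ 2 - 4 * e ^ 2) * (4 * e - 2) ≤
      1 / 2 * ((4 * e - 2) ^ 2 + (849 / 1000) ^ 2 * (2 * ν + 266 / 100) ^ 2) +
      8 * 849 / 1000 * (ν * e * (2 * ν + 266 / 100)) := by
    nlinarith [mul_nonneg (sub_nonneg.2 he) (sub_nonneg.2 he2), sq_nonneg (ν - 567/100),
      mul_nonneg (sub_nonneg.2 he) (sub_nonneg.2 hν), mul_nonneg (sub_nonneg.2 he2) (sub_nonneg.2 hν),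
      mul_nonneg (sub_nonneg.2 he2) (sq_nonneg (ν - 567/100)),
      mul_nonneg (sub_nonneg.2 he) (sq_nonneg (ν - 567/100))]
  simp only [neg_sq]
  nlinarith

lemma b_G_le (hν : 567 / 100 ≤ ν) (hνH : 698 / 10000 * H ^ 2 ≤ ν) (hρ : 266 / 100 ≤ ρ) :
    H ^ 2 + 4 * ν ^ 2 ≤ 4 * ν * (739 / 1000 * (2 * ν + ρ)) := by nlinarith

lemma b_Fa {e : ℝ} (hν : 567 / 100 ≤ ν) (hνH : 698 / 10000 * H ^ 2 ≤ ν)
    (hρ : 266 / 100 ≤ ρ) (he : 0 < e) (hL : 0 < H - 2 * e) :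
    Gf H ν (-e) * (2 * e) < (H - 2 * e) * ((2 * e) ^ 2 + (739 / 1000 * (2 * ν + ρ)) ^ 2) +
      8 * ν * e * (739 / 1000 * (2 * ν + ρ)) := by
  unfold Gf
  have h1 := b_G_le hν hνH hρ
  have h2 : 0 < (2 * e) ^ 2 + (739 / 1000 * (2 * ν + ρ)) ^ 2 := by positivity
  have h3 := mul_pos hL h2
  have h4 := mul_le_mul_of_nonneg_right h1 he.le
  simp only [neg_sq]
  nlinarith [mul_pos he (mul_pos he he)]

lemma b_f2 (hH : 17 / 2 ≤ H) (hν : 698 / 10000 * H ^ 2 ≤ ν) :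
    0 < (H - 11 / 2) * (361 / 4 + (739 / 1000) ^ 2 * (2 * ν + 266 / 100) ^ 2) +
      22 * ν * (739 / 1000) * (2 * ν + 266 / 100) - 19 / 2 * (H ^ 2 + 4 * ν ^ 2) + 2299 / 8 := by
  have hν5 : 5 ≤ ν := by nlinarith
  nlinarith [mul_nonneg (sub_nonneg.2 hH) (sub_nonneg.2 hν),
    mul_nonneg (sub_nonneg.2 hH) (sub_nonneg.2 hν5),
    mul_nonneg (mul_nonneg (sub_nonneg.2 hH) (sub_nonneg.2 hν5)) (sub_nonneg.2 hν5),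
    sq_nonneg (ν - 5)]

lemma b_f1 (hH : 17 / 2 ≤ H) (hν : 698 / 10000 * H ^ 2 ≤ ν) :
    0 < (H - 2) * (-(171 / 4) + (739 / 1000) ^ 2 * (2 * ν + 266 / 100) ^ 2) +
      8 * ν * (739 / 1000) * (2 * ν + 266 / 100) - 5 / 2 * (H ^ 2 + 4 * ν ^ 2) - 165 / 8 := by
  have hν5 : 5 ≤ ν := by nlinarith
  nlinarith [mul_nonneg (sub_nonneg.2 hH) (sub_nonneg.2 hν),
    mul_nonneg (sub_nonneg.2 hH) (sub_nonneg.2 hν5),
    mul_nonneg (mul_nonneg (sub_nonneg.2 hH) (sub_nonneg.2 hν5)) (sub_nonneg.2 hν5),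
    sq_nonneg (ν - 5)]

lemma b_Fb {e : ℝ} (hH : 17 / 2 ≤ H) (hν : 567 / 100 ≤ ν) (hνH : 698 / 10000 * H ^ 2 ≤ ν)
    (hρ : 266 / 100 ≤ ρ) (he : 1 ≤ e) (he2 : e ≤ 11 / 4) :
    Gf H ν (-e) * (4 * e - 3 / 2) <
      (H - 2 * e) * ((4 * e - 3 / 2) ^ 2 + (739 / 1000 * (2 * ν + ρ)) ^ 2) +
      8 * ν * e * (739 / 1000 * (2 * ν + ρ)) := by
  have g1 := b_f1 hH hνH
  have g2 := b_f2 hH hνH
  have hL : 0 < H - 2 * e := by linarith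
  -- monotonicity in `ρ`
  have h1 : (H - 2 * e) * (739 / 1000 * (2 * ν + 266 / 100)) ^ 2 ≤
      (H - 2 * e) * (739 / 1000 * (2 * ν + ρ)) ^ 2 := by
    apply mul_le_mul_of_nonneg_left _ hL.le
    apply pow_le_pow_left₀ <;> linarith
  have h2 : 8 * ν * e * (739 / 1000 * (2 * ν + 266 / 100)) ≤
      8 * ν * e * (739 / 1000 * (2 * ν + ρ)) := by
    apply mul_le_mul_of_nonneg_left (by linarith) (by positivity)
  -- tangents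
  have h3 : (H - 2 * e) * (19 * (4 * e - 3 / 2) - 361 / 4) ≤ (H - 2 * e) * (4 * e - 3 / 2) ^ 2 := by
    apply mul_le_mul_of_nonneg_left _ hL.le
    nlinarith [sq_nonneg (4 * e - 3 / 2 - 19 / 2)]
  have h4 : 4 * (11 / 2 * e - 121 / 16) * (4 * e - 3 / 2) ≤ 4 * e ^ 2 * (4 * e - 3 / 2) := by
    apply mul_le_mul_of_nonneg_right _ (by linarith)
    nlinarith [sq_nonneg (e - 11 / 4)]
  set K : ℝ := (739 / 1000) ^ 2 * (2 * ν + 266 / 100) ^ 2 with hK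
  -- concave in `e`
  have key : 0 < (H - 2 * e) * (19 * (4 * e - 3 / 2) - 361 / 4 + K) +
      8 * ν * e * (739 / 1000 * (2 * ν + 266 / 100)) - (H ^ 2 + 4 * ν ^ 2) * (4 * e - 3 / 2) +
      4 * (11 / 2 * e - 121 / 16) * (4 * e - 3 / 2) := by
    have e1 : 0 ≤ (e - 1) := by linarith
    have e2 : 0 ≤ (11 / 4 - e) := by linarith
    have e3 : 0 ≤ (e - 1) * (11 / 4 - e) := mul_nonneg e1 e2
    have id : 7 / 4 * ((H - 2 * e) * (19 * (4 * e - 3 / 2) - 361 / 4 + K) +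
      8 * ν * e * (739 / 1000 * (2 * ν + 266 / 100)) - (H ^ 2 + 4 * ν ^ 2) * (4 * e - 3 / 2) +
      4 * (11 / 2 * e - 121 / 16) * (4 * e - 3 / 2)) =
      (11 / 4 - e) * ((H - 2) * (-(171 / 4) + K) +
      8 * ν * (739 / 1000) * (2 * ν + 266 / 100) - 5 / 2 * (H ^ 2 + 4 * ν ^ 2) - 165 / 8) +
      (e - 1) * ((H - 11 / 2) * (361 / 4 + K) +
      22 * ν * (739 / 1000) * (2 * ν + 266 / 100) - 19 / 2 * (H ^ 2 + 4 * ν ^ 2) + 2299 / 8) +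
      7 / 4 * 64 * ((e - 1) * (11 / 4 - e)) := by ring
    rcases eq_or_lt_of_le e1 with h | h
    · have : 0 < (11 / 4 - e) := by linarith
      have p1 := mul_pos this g1
      have p2 := mul_nonneg e1 g2.le
      linarith
    · have p1 := mul_nonneg e2 g1.le
      have p2 := mul_pos h g2
      linarith
  unfold Gf
  simp only [neg_sq]
  rw [hK] at key
  nlinarith

end large

end Vale.Agent.P139.H539
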