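import Vale.Agent.P139.H772.EW1
import Vale.Agent.P139.H539.Big2

/-!
# One backward step in real coordinates

At a level `a` with `S a b ρ ≠ 0` write `2 DS/S = H + iρ + X - iZ`, `H = b - 1`.  If
`2 a' = H + 2 s - 2 i ν` is the level below (`a = a' + 1`), put `P = X + 2 s`, `Q = 2ν + ρ + Z`,
`N = 2ν + ρ`, `G = H² + 4ν² - 4 s²`.  Then at the lower level
`X' = 2 s + (G P - 8 ν s Q)/(P² + Q²)`, `Z' = N - (G Q + 8 ν s P)/(P² + Q²)`.
-/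

noncomputable section

open MeasureTheory Set Filter Topology Complex ComplexConjugate

namespace Vale.Agent.P139.H539

open Vale.Agent.P139.KU (S J)
open Vale.Agent.P139.H772

/-- Real coordinates of the ratio `DS/S`. -/
def Lev (a : ℂ) (b ρ X Z : ℝ) : Prop :=
  S a b ρ ≠ 0 ∧ 2 * DS a b ρ = (((b - 1 + X : ℝ) : ℂ) + ((ρ - Z : ℝ) : ℂ) * I) * S a b ρ

lemma Lev.exists {a : ℂ} {b ρ : ℝ} (h : S a b ρ ≠ 0) : ∃ X Z : ℝ, Lev a b ρ X Z := by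
  refine ⟨2 * (DS a b ρ / S a b ρ).re - (b - 1), ρ - 2 * (DS a b ρ / S a b ρ).im, h, ?_⟩
  have e : (((b - 1 + (2 * (DS a b ρ / S a b ρ).re - (b - 1)) : ℝ) : ℂ) +
      ((ρ - (ρ - 2 * (DS a b ρ / S a b ρ).im) : ℝ) : ℂ) * I) = 2 * (DS a b ρ / S a b ρ) := by
    apply Complex.ext <;> simp
  rw [e]
  field_simp

/-- Real part of the flux in real coordinates. -/
lemma Lev.re_flux {a : ℂ} {b ρ X Z : ℝ} (h : Lev a b ρ X Z) :
    2 * (DS a b ρ * conj (S a b ρ)).re = (b - 1 + X) * normSq (S a b ρ) := by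
  have e : 2 * (DS a b ρ * conj (S a b ρ)) =
      (((b - 1 + X : ℝ) : ℂ) + ((ρ - Z : ℝ) : ℂ) * I) * ((normSq (S a b ρ) : ℝ) : ℂ) := by
    rw [← mul_assoc, h.2, mul_assoc, Complex.mul_conj]
  have e2 := congrArg Complex.re e
  rw [Complex.re_mul_ofReal] at e2
  simpa using e2

lemma Lev.im_flux {a : ℂ} {b ρ X Z : ℝ} (h : Lev a b ρ X Z) :
    2 * (DS a b ρ * conj (S a b ρ)).im = (ρ - Z) * normSq (S a b ρ) := by
  have e : 2 * (DS a b ρ * conj (S a b ρ)) =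
      (((b - 1 + X : ℝ) : ℂ) + ((ρ - Z : ℝ) : ℂ) * I) * ((normSq (S a b ρ) : ℝ) : ℂ) := by
    rw [← mul_assoc, h.2, mul_assoc, Complex.mul_conj]
  have e2 := congrArg Complex.im e
  rw [Complex.im_mul_ofReal] at e2
  simpa using e2

/-- Lemma RE in real coordinates. -/
lemma Lev.X_nonneg {a : ℂ} {b ρ X Z : ℝ} (h : Lev a b ρ X Z) (ha : 0 < a.re)
    (hab : (b - 1) / 2 ≤ a.re) (hρ : 0 < ρ) : 0 ≤ X := by
  have h1 := re_DS (b := b) ha hab hρ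
  have h2 := h.re_flux
  have h3 : 0 < normSq (S a b ρ) := Complex.normSq_pos.2 h.1
  have h4 : 0 ≤ X * normSq (S a b ρ) := by nlinarith
  exact nonneg_of_mul_nonneg_left h4 h3

/-- The flux identity in real coordinates. -/
lemma Lev.Z_nonneg {a : ℂ} {b ρ X Z : ℝ} (h : Lev a b ρ X Z) (ha : 0 < a.re)
    (hab : b / 2 < a.re) (hρ : 0 < ρ) : 0 ≤ Z := by
  obtain ⟨e1, e2⟩ := S_DS_eq (b := b) ha hρ
  have hG : Gamma a ≠ 0 := Complex.Gamma_ne_zero_of_re_pos ha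
  have hJ : J a (b - a - 1) ρ ≠ 0 := Vale.Agent.P139.KU.J_ne_zero_of_flux (by ring) ha hab hρ
  have h1 := Vale.Agent.P139.KU.im_ratio_lt (a := a) (c := b - a - 1) (b := b) (by ring) ha hab hρ
  have h2 := h.2
  rw [e1, e2] at h2
  have h3 : 2 * (ρ * (J (a + 1) (b - a - 1) ρ / J a (b - a - 1) ρ)) =
      (((b - 1 + X : ℝ) : ℂ) + ((ρ - Z : ℝ) : ℂ) * I) := by
    have h4 : (2 * (ρ * J (a + 1) (b - a - 1) ρ)) =
        (((b - 1 + X : ℝ) : ℂ) + ((ρ - Z : ℝ) : ℂ) * I) * J a (b - a - 1) ρ := by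
      field_simp at h2
      linear_combination h2
    field_simp
    linear_combination h4
  have h5 := congrArg Complex.im h3
  have e5 : (2 * ((ρ : ℂ) * (J (a + 1) (b - a - 1) ρ / J a (b - a - 1) ρ))).im =
      2 * (ρ * (J (a + 1) (b - a - 1) ρ / J a (b - a - 1) ρ).im) := by
    have : (2 * ((ρ : ℂ) * (J (a + 1) (b - a - 1) ρ / J a (b - a - 1) ρ))) =
      (((2 * ρ : ℝ) : ℂ) * (J (a + 1) (b - a - 1) ρ / J a (b - a - 1) ρ)) := by push_cast; ring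
    rw [this, Complex.im_ofReal_mul]; ring
  rw [e5] at h5
  have e6 : (((b - 1 + X : ℝ) : ℂ) + ((ρ - Z : ℝ) : ℂ) * I).im = ρ - Z := by simp
  rw [e6] at h5
  nlinarith

/-- The step before division. -/
lemma Lev.down {a : ℂ} {b ρ X Z s ν : ℝ} (h : Lev (a + 1) b ρ X Z) (ha : -1 < a.re) (hρ : 0 < ρ)
    (hre : 2 * a.re = b - 1 + 2 * s) (him : a.im = -ν) :
    2 * S a b ρ = S (a + 1) b ρ * (I * (((X + 2 * s : ℝ) : ℂ) - ((2 * ν + ρ + Z : ℝ) : ℂ) * I)) ∧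
    4 * DS a b ρ = S (a + 1) b ρ * (I * ((((b - 1 + 2 * s : ℝ) : ℂ) - ((2 * ν : ℝ) : ℂ) * I) *
      (((b - 1 + X : ℝ) : ℂ) - ((ρ + Z : ℝ) : ℂ) * I))) := by
  have hζ : 0 < (ρ : ℂ).re := by simpa using hρ
  have h1 := S_step (a := a) (ζ := ρ) (b : ℂ) ha hζ
  have h2 := DS_step (a := a) (ζ := ρ) (b : ℂ) ha hζ
  have h3 := h.2
  have e : 2 * a = ((b - 1 + 2 * s : ℝ) : ℂ) - ((2 * ν : ℝ) : ℂ) * I := by
    apply Complex.ext
    · simp; linarith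
    · simp; linarith
  have hI : I * I = -1 := Complex.I_mul_I
  push_cast at h3 e ⊢
  constructor
  · linear_combination 2 * h1 + I * h3 + I * S (a + 1) b ρ * e
      + (2 * S (a + 1) b ρ * ρ) * hI
  · linear_combination 4 * h2 + 2 * a * I * h3 +
      (I * S (a + 1) b ρ * (b - 1 + X - (ρ + Z) * I)) * e + (4 * a * S (a + 1) b ρ * ρ) * hI




/-- One step in real coordinates. -/
theorem Lev.step {a : ℂ} {b ρ X Z s ν : ℝ} (h : Lev (a + 1) b ρ X Z) (ha : -1 < a.re) (hρ : 0 < ρ)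
    (hre : 2 * a.re = b - 1 + 2 * s) (him : a.im = -ν) (hQ : 0 < 2 * ν + ρ + Z) :
    ∃ X' Z' : ℝ, Lev a b ρ X' Z' ∧
      (X' - 2 * s) * ((X + 2 * s) ^ 2 + (2 * ν + ρ + Z) ^ 2) =
        Gf (b - 1) ν s * (X + 2 * s) - 8 * ν * s * (2 * ν + ρ + Z) ∧
      (2 * ν + ρ - Z') * ((X + 2 * s) ^ 2 + (2 * ν + ρ + Z) ^ 2) =
        Gf (b - 1) ν s * (2 * ν + ρ + Z) + 8 * ν * s * (X + 2 * s) := by
  obtain ⟨h1, h2⟩ := h.down ha hρ hre him
  set P := X + 2 * s with hP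
  set Q := 2 * ν + ρ + Z with hQd
  have hD : 0 < P ^ 2 + Q ^ 2 := by positivity
  have hDne : ((P : ℂ) - (Q : ℂ) * I) ≠ 0 := by
    intro h0
    have := congrArg Complex.im h0
    simp at this
    exact hQ.ne' this
  have hS : S a b ρ ≠ 0 := by
    intro h0
    rw [h0, mul_zero] at h1
    exact (mul_ne_zero h.1 (mul_ne_zero I_ne_zero hDne)) h1.symm
  refine ⟨2 * s + (Gf (b - 1) ν s * P - 8 * ν * s * Q) / (P ^ 2 + Q ^ 2),
    2 * ν + ρ - (Gf (b - 1) ν s * Q + 8 * ν * s * P) / (P ^ 2 + Q ^ 2), ⟨hS, ?_⟩, ?_, ?_⟩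
  · have hDc : ((P : ℂ) ^ 2 + (Q : ℂ) ^ 2) ≠ 0 := by
      exact_mod_cast hD.ne'
    have hI : I * I = -1 := Complex.I_mul_I
    have key : (((b - 1 + 2 * s : ℝ) : ℂ) - ((2 * ν : ℝ) : ℂ) * I) *
        (((b - 1 + X : ℝ) : ℂ) - ((ρ + Z : ℝ) : ℂ) * I) =
      (((b - 1 + (2 * s + (Gf (b - 1) ν s * P - 8 * ν * s * Q) / (P ^ 2 + Q ^ 2)) : ℝ) : ℂ) +
        ((ρ - (2 * ν + ρ - (Gf (b - 1) ν s * Q + 8 * ν * s * P) / (P ^ 2 + Q ^ 2)) : ℝ) : ℂ) * I) *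
        ((P : ℂ) - (Q : ℂ) * I) := by
      have hX : X = P - 2 * s := by rw [hP]; ring
      have hZ : Z = Q - 2 * ν - ρ := by rw [hQd]; ring
      rw [hX, hZ]
      unfold Gf
      push_cast
      field_simp
      linear_combination ((-4*(ν:ℂ)^2*P^2 - 4*(ν:ℂ)^2*Q^2) + ((b:ℂ)^2 - 2*b + 1)*Q^2 + 8*s*ν*P*Q - 4*s^2*Q^2 + 4*ν^2*Q^2) * hI
    rw [key] at h2
    have h4 : (2 : ℂ) ≠ 0 := two_ne_zero
    apply mul_left_cancel₀ h4
    linear_combination h2 - (((b - 1 + (2 * s + (Gf (b - 1) ν s * P - 8 * ν * s * Q) / (P ^ 2 + Q ^ 2)) : ℝ) : ℂ) +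
        ((ρ - (2 * ν + ρ - (Gf (b - 1) ν s * Q + 8 * ν * s * P) / (P ^ 2 + Q ^ 2)) : ℝ) : ℂ) * I) * h1
  · field_simp
    ring
  · field_simp
    ring

end Vale.Agent.P139.H539
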