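import Vale.Agent.P139.H539.Big1
import Vale.Agent.P139.H539.Big2
import Vale.Agent.P139.H772.EW4

/-!
# Upper side of the outer region

For `ν = w - Im lam` large, `0 < Re (DS conj S)` at `a = lam + l/2 - i w`, `b = 13/2 + l`.
-/

noncomputable section

open MeasureTheory Set Filter Topology Complex ComplexConjugate

namespace Vale.Agent.P139.H539

open Vale.Agent.P139.KU (S J aE aE_re)
open Vale.Agent.P139.H772

/-- Three steps of the ladder. -/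
theorem chain {a : ℂ} {b ρ σ ν δ κ3 κ2 κ1 t : ℝ} (hρ : 0 < ρ) (hν : 0 < ν)
    (hb : 2 < b) (hσ : 0 ≤ σ) (hre : 2 * a.re = b - 1 + 2 * (σ - 11 / 4)) (him : a.im = -ν)
    (ha : 0 ≤ a.re)
    (k3 : 0 < κ3) (k2 : 0 < κ2) (k3' : κ3 < 2) (k2' : κ2 < 2) (k1' : κ1 < 2)
    (hE : (b - 1) ^ 2 + 4 * ν ^ 2 ≤ δ * (2 * ν + ρ) ^ 2)
    (d3 : δ ≤ (2 - κ3) * 1) (d2 : δ ≤ (2 - κ2) * κ3) (d1 : δ ≤ (2 - κ1) * κ2) (ht : 0 ≤ t)
    (hG : ∀ e, 0 < e → e ≤ 3 / 4 → 0 ≤ Gf (b - 1) ν (-e))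
    (hx2 : ∀ e, 0 < e → e ≤ 3 / 4 → Gf (b - 1) ν (-e) * (2 * e) ≤
      0 * ((2 * e) ^ 2 + (κ3 * (2 * ν + ρ)) ^ 2) + 8 * ν * e * (κ3 * (2 * ν + ρ)))
    (hG1 : ∀ e, 0 < e → e ≤ 7 / 4 → 2 * t * (2 * (e + max 0 (e - 1))) ≤ Gf (b - 1) ν (-e))
    (hx1 : ∀ e, 0 < e → e ≤ 7 / 4 → Gf (b - 1) ν (-e) * (2 * (e + max 0 (e - 1))) ≤
      t * ((2 * (e + max 0 (e - 1))) ^ 2 + (κ2 * (2 * ν + ρ)) ^ 2) +
        8 * ν * e * (κ2 * (2 * ν + ρ))) :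
    ∃ X Z : ℝ, Lev (a + 1) b ρ X Z ∧ κ1 * (2 * ν + ρ) ≤ 2 * ν + ρ + Z ∧
      (σ < 7 / 4 → -(2 * (7 / 4 - σ) + t) ≤ X) ∧ (7 / 4 ≤ σ → 0 ≤ X) := by
  have hN : 0 < 2 * ν + ρ := by positivity
  have r1 : (a + 1).re = a.re + 1 := by simp
  have r2 : (a + 2).re = a.re + 2 := by simp
  have r3 : (a + 3).re = a.re + 3 := by simp
  have r4 : (a + 3 + 1).re = a.re + 4 := by simp; ring
  have i1 : (a + 1).im = -ν := by simp [him]
  have i2 : (a + 2).im = -ν := by simp [him]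
  have i3 : (a + 3).im = -ν := by simp [him]
  obtain ⟨X4, Z4, L4⟩ := Lev.exists (a := a + 3 + 1) (b := b) (ρ := ρ)
    (S_ne_zero hb (by rw [r4]; linarith) hρ)
  have hZ4 : 0 ≤ Z4 := L4.Z_nonneg (by rw [r4]; linarith) (by rw [r4]; linarith) hρ
  obtain ⟨X3, Z3, L3, -, ez3⟩ := L4.step (s := σ + 1 / 4) (ν := ν) (by rw [r3]; linarith) hρ
    (by rw [r3]; linarith) i3 (by linarith)
  have hX3 : 0 ≤ X3 := L3.X_nonneg (by rw [r3]; linarith) (by rw [r3]; linarith) hρ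
  have q3 : κ3 * (2 * ν + ρ) ≤ 2 * ν + ρ + Z3 :=
    z_step hN one_pos k3' (by linarith) hE d3 ez3
  have q3p : 0 < κ3 * (2 * ν + ρ) := mul_pos k3 hN
  rw [show a + 3 = a + 2 + 1 by ring] at L3
  obtain ⟨X2, Z2, L2, ex2, ez2⟩ := L3.step (s := σ - 3 / 4) (ν := ν) (by rw [r2]; linarith) hρ
    (by rw [r2]; linarith) i2 (by linarith)
  have q2 : κ2 * (2 * ν + ρ) ≤ 2 * ν + ρ + Z2 := z_step hN k3 k2' q3 hE d2 ez2
  have q2p : 0 < κ2 * (2 * ν + ρ) := mul_pos k2 hN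
  have hX2 : -(2 * max 0 (3 / 4 - σ)) ≤ X2 := by
    by_cases h : σ < 3 / 4
    · rw [max_eq_right (show (0 : ℝ) ≤ 3 / 4 - σ by linarith)]
      rw [show σ - 3 / 4 = -(3 / 4 - σ) by ring] at ex2
      have := x_step (t := 0) (e := 3 / 4 - σ) hν.le (by linarith) le_rfl q3p q3
        (p := 2 * (3 / 4 - σ))
        (by linarith) (by simpa using hG (3 / 4 - σ) (by linarith) (by linarith))
        (hx2 (3 / 4 - σ) (by linarith) (by linarith)) ex2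
      linarith
    · rw [max_eq_left (show 3 / 4 - σ ≤ (0 : ℝ) by linarith)]
      have := L2.X_nonneg (by rw [r2]; linarith) (by rw [r2]; linarith) hρ
      linarith
  rw [show a + 2 = a + 1 + 1 by ring] at L2
  obtain ⟨X1, Z1, L1, ex1, ez1⟩ := L2.step (s := σ - 7 / 4) (ν := ν) (by rw [r1]; linarith) hρ
    (by rw [r1]; linarith) i1 (by linarith)
  have q1 : κ1 * (2 * ν + ρ) ≤ 2 * ν + ρ + Z1 := z_step hN k2 k1' q2 hE d1 ez1
  refine ⟨X1, Z1, L1, q1, fun h => ?_, fun h => ?_⟩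
  · rw [show σ - 7 / 4 = -(7 / 4 - σ) by ring] at ex1
    refine x_step (e := 7 / 4 - σ) hν.le (by linarith) ht q2p q2
      (p := 2 * (7 / 4 - σ + max 0 (7 / 4 - σ - 1)))
      ?_ (hG1 (7 / 4 - σ) (by linarith) (by linarith))
      (hx1 (7 / 4 - σ) (by linarith) (by linarith)) ex1
    rw [show 7 / 4 - σ - 1 = 3 / 4 - σ by ring]
    linarith
  · exact L1.X_nonneg (by rw [r1]; linarith) (by rw [r1]; linarith) hρ

/-- The flux at the lowest level. -/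
theorem flux_of_lev {a : ℂ} {b ρ X Z e ν : ℝ} (h : Lev (a + 1) b ρ X Z) (ha : -1 < a.re)
    (hρ : 0 < ρ) (hre : 2 * a.re = b - 1 + 2 * (-e)) (him : a.im = -ν)
    (hF : 0 < (b - 1 - 2 * e) * ((X + 2 * (-e)) ^ 2 + (2 * ν + ρ + Z) ^ 2) +
      Gf (b - 1) ν (-e) * (X + 2 * (-e)) + 8 * ν * e * (2 * ν + ρ + Z)) :
    0 < (DS a b ρ * conj (S a b ρ)).re := by
  obtain ⟨h1, h2⟩ := h.down ha hρ hre him
  have h3 : 0 < normSq (S (a + 1) b ρ) := Complex.normSq_pos.2 h.1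
  have e8 : 8 * (DS a b ρ * conj (S a b ρ)) = (normSq (S (a + 1) b ρ) : ℂ) *
      ((((b - 1 + 2 * (-e) : ℝ) : ℂ) - ((2 * ν : ℝ) : ℂ) * I) *
      (((b - 1 + X : ℝ) : ℂ) - ((ρ + Z : ℝ) : ℂ) * I) *
      (((X + 2 * (-e) : ℝ) : ℂ) + ((2 * ν + ρ + Z : ℝ) : ℂ) * I)) := by
    have c1 := congrArg (starRingEnd ℂ) h1
    simp only [map_mul, map_sub, Complex.conj_ofReal, Complex.conj_I, map_ofNat] at c1
    have e9 : 8 * (DS a b ρ * conj (S a b ρ)) = (4 * DS a b ρ) * (2 * conj (S a b ρ)) := by ring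
    rw [e9, h2, c1, ← Complex.mul_conj]
    have hI : I * I = -1 := Complex.I_mul_I
    linear_combination (-(S (a + 1) b ρ) * ((((b - 1 + 2 * (-e) : ℝ) : ℂ) - ((2 * ν : ℝ) : ℂ) * I) *
      (((b - 1 + X : ℝ) : ℂ) - ((ρ + Z : ℝ) : ℂ) * I)) * conj (S (a + 1) b ρ) *
      (((X + 2 * (-e) : ℝ) : ℂ) + ((2 * ν + ρ + Z : ℝ) : ℂ) * I)) * hI
  have e10 := congrArg Complex.re e8
  rw [Complex.re_ofReal_mul] at e10
  have e11 : (8 * (DS a b ρ * conj (S a b ρ))).re = 8 * (DS a b ρ * conj (S a b ρ)).re := by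
    rw [Complex.mul_re]; simp
  have e12 : ((((b - 1 + 2 * (-e) : ℝ) : ℂ) - ((2 * ν : ℝ) : ℂ) * I) *
      (((b - 1 + X : ℝ) : ℂ) - ((ρ + Z : ℝ) : ℂ) * I) *
      (((X + 2 * (-e) : ℝ) : ℂ) + ((2 * ν + ρ + Z : ℝ) : ℂ) * I)).re =
      (b - 1 - 2 * e) * ((X + 2 * (-e)) ^ 2 + (2 * ν + ρ + Z) ^ 2) +
      Gf (b - 1) ν (-e) * (X + 2 * (-e)) + 8 * ν * e * (2 * ν + ρ + Z) := by
    simp only [Complex.mul_re, Complex.add_re, Complex.sub_re, Complex.mul_im, Complex.add_im,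
      Complex.sub_im, Complex.ofReal_re, Complex.ofReal_im, Complex.I_re, Complex.I_im]
    unfold Gf
    ring
  rw [e11, e12] at e10
  have := mul_pos h3 hF
  linarith

end Vale.Agent.P139.H539
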