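import Vale.Agent.P139.H539.Big3

/-!
# Upper side of the outer region: the final theorem
-/

noncomputable section

open MeasureTheory Set Filter Topology Complex ComplexConjugate

namespace Vale.Agent.P139.H539

open Vale.Agent.P139.KU (S J aE aE_re)
open Vale.Agent.P139.H772

lemma aE_im' (l : ℕ) (w : ℝ) (lam : ℂ) : (aE l w lam).im = -(w - lam.im) := by
  simp [aE]

/-- Small angular degree. -/
theorem big_upper_small {l : ℕ} (hl : l ≤ 2) {w ρ : ℝ} {lam : ℂ} (hρ : 266 / 100 ≤ ρ)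
    (h0 : 0 ≤ lam.re) (hν : 567 / 100 ≤ w - lam.im) : BigIneq l w ρ lam := by
  by_cases h : 11 / 4 ≤ lam.re
  · exact bigIneq_of_re (by linarith) h
  push Not at h
  have hρ0 : 0 < ρ := by linarith
  have hl0 : (0 : ℝ) ≤ l := Nat.cast_nonneg l
  have hl2 : (l : ℝ) ≤ 2 := by exact_mod_cast hl
  set σ := lam.re with hσ
  set ν := w - lam.im with hνd
  have hν0 : 0 < ν := by linarith
  have hN : 0 < 2 * ν + ρ := by positivity
  have hHb : bR l - 1 = 11 / 2 + l := by unfold bR; ring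
  have hre : 2 * (aE l w lam).re = bR l - 1 + 2 * (σ - 11 / 4) := by
    rw [aE_re, hHb]; ring
  have hre0 : 0 ≤ (aE l w lam).re := by rw [aE_re]; linarith
  have him : (aE l w lam).im = -ν := aE_im' l w lam
  have hH : bR l - 1 ≤ 15 / 2 := by rw [hHb]; linarith
  have hH0 : 0 ≤ bR l - 1 := by rw [hHb]; linarith
  have G0 : ∀ e : ℝ, 0 < e → e ≤ 11 / 4 → 0 ≤ Gf (bR l - 1) ν (-e) := by
    intro e h1 h2
    unfold Gf
    nlinarith [sq_nonneg (bR l - 1)]
  obtain ⟨X, Z, L, hQ, hXa, hXb⟩ := chain (a := aE l w lam) (b := bR l) (ρ := ρ) (σ := σ) (ν := ν)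
    (δ := 1) (κ3 := 1) (κ2 := 1) (κ1 := 1) (t := 0) hρ0 hν0 (by linarith) h0 hre him hre0
    one_pos one_pos (by norm_num) (by norm_num) (by norm_num)
    (a_E hH hH0 hν hρ) (by norm_num) (by norm_num) (by norm_num) le_rfl
    (fun e h1 h2 => G0 e h1 (by linarith))
    (fun e h1 h2 => by simpa using a_X2 hH hH0 hν hρ h1.le)
    (fun e h1 h2 => by simpa using G0 e h1 (by linarith))
    (fun e h1 h2 => by
      have := a_X1 (e' := max 0 (e - 1)) hH hH0 hν hρ h1.le (by
        rcases le_total e 1 with h3 | h3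
        · rw [max_eq_left (by linarith)]; linarith
        · rw [max_eq_right (by linarith)]; linarith) h2
      simpa using this)
  have hX : -(2 * (max 0 (7 / 4 - σ))) ≤ X := by
    rcases lt_or_ge σ (7 / 4) with h1 | h1
    · rw [max_eq_right (by linarith)]
      have := hXa h1
      linarith
    · rw [max_eq_left (by linarith)]
      have := hXb h1
      linarith
  refine flux_of_lev (e := 11 / 4 - σ) L (by linarith) hρ0 (by rw [hre]; ring) him ?_
  refine a_F (e' := max 0 (7 / 4 - σ)) hH hH0 hν hρ (by linarith) ?_ (by linarith) ?_ ?_ ?_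
  · rcases le_total (7 / 4) σ with h3 | h3
    · rw [max_eq_left (by linarith)]; linarith
    · rw [max_eq_right (by linarith)]; linarith
  · rw [hHb]; linarith
  · linarith
  · linarith

/-- Larger angular degree. -/
theorem big_upper_large {l : ℕ} (hl : 3 ≤ l) {w ρ : ℝ} {lam : ℂ} (hρ : 266 / 100 ≤ ρ)
    (h0 : 0 ≤ lam.re) (hν : 567 / 100 ≤ w - lam.im) (hν4 : l = 4 → 63 / 10 ≤ w - lam.im)
    (hν5 : 5 ≤ l → 7 / 100 * (l + 11 / 2) ^ 2 ≤ w - lam.im) : BigIneq l w ρ lam := by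
  by_cases h : 11 / 4 ≤ lam.re
  · exact bigIneq_of_re (by linarith) h
  push Not at h
  have hρ0 : 0 < ρ := by linarith
  have hl3 : (3 : ℝ) ≤ l := by exact_mod_cast hl
  set σ := lam.re with hσ
  set ν := w - lam.im with hνd
  have hν0 : 0 < ν := by linarith
  have hN : 0 < 2 * ν + ρ := by positivity
  have hHb : bR l - 1 = l + 11 / 2 := by unfold bR; ring
  have hre : 2 * (aE l w lam).re = bR l - 1 + 2 * (σ - 11 / 4) := by
    rw [aE_re, hHb]; ring
  have hre0 : 0 ≤ (aE l w lam).re := by rw [aE_re]; linarith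
  have him : (aE l w lam).im = -ν := aE_im' l w lam
  have hE : (bR l - 1) ^ 2 + 4 * ν ^ 2 ≤ 107 / 100 * (2 * ν + ρ) ^ 2 := by
    rcases Nat.lt_or_ge l 5 with h5 | h5
    · have h34 : l = 3 ∨ l = 4 := by omega
      rcases h34 with h3 | h3
      · exact b_E3 (by rw [hHb, h3]; norm_num) hν hρ
      · exact b_E4 (by rw [hHb, h3]; norm_num) (hν4 h3) hρ
    · have h5' : (5 : ℝ) ≤ l := by exact_mod_cast h5
      exact b_E5 (by rw [hHb]; linarith) (by rw [hHb]; exact hν5 h5) hρ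
  have hνH : 698 / 10000 * (bR l - 1) ^ 2 ≤ ν := by
    rcases Nat.lt_or_ge l 5 with h5 | h5
    · have h34 : l = 3 ∨ l = 4 := by omega
      rcases h34 with h3 | h3
      · rw [hHb, h3]; norm_num; linarith
      · have := hν4 h3
        rw [hHb, h3]; norm_num; linarith
    · have := hν5 h5
      rw [hHb]
      nlinarith [sq_nonneg ((l : ℝ) + 11 / 2)]
  have hH : 17 / 2 ≤ bR l - 1 := by rw [hHb]; linarith
  have G0 : ∀ e : ℝ, 0 < e → e ≤ 11 / 4 → 0 ≤ Gf (bR l - 1) ν (-e) := by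
    intro e h1 h2
    unfold Gf
    nlinarith [sq_nonneg (bR l - 1)]
  obtain ⟨X, Z, L, hQ, hXa, hXb⟩ := chain (a := aE l w lam) (b := bR l) (ρ := ρ) (σ := σ) (ν := ν)
    (δ := 107 / 100) (κ3 := 93 / 100) (κ2 := 849 / 1000) (κ1 := 739 / 1000) (t := 1 / 2) hρ0 hν0
    (by linarith) h0 hre him hre0
    (by norm_num) (by norm_num) (by norm_num) (by norm_num) (by norm_num)
    hE (by norm_num) (by norm_num) (by norm_num) (by norm_num)
    (fun e h1 h2 => G0 e h1 (by linarith))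
    (fun e h1 h2 => b_X2 hν hνH hρ h1.le)
    (fun e h1 h2 => by
      have h3 : max 0 (e - 1) ≤ 3 / 4 := max_le (by norm_num) (by linarith)
      unfold Gf
      nlinarith)
    (fun e h1 h2 => by
      rcases le_total e 1 with h3 | h3
      · rw [max_eq_left (by linarith)]
        simpa using b_X1a hν hνH hρ h1.le
      · rw [max_eq_right (by linarith)]
        have := b_X1b hν hνH hρ h3 h2
        rw [show 2 * (e + (e - 1)) = 4 * e - 2 by ring]
        exact this)
  have hQ₀ : 0 < 739 / 1000 * (2 * ν + ρ) := by positivity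
  have hL : bR l - 1 - 2 * (11 / 4 - σ) = l + 2 * σ := by rw [hHb]; ring
  have hL0 : 0 < bR l - 1 - 2 * (11 / 4 - σ) := by rw [hL]; linarith
  refine flux_of_lev (e := 11 / 4 - σ) L (by linarith) hρ0 (by rw [hre]; ring) him ?_
  rcases lt_or_ge σ (7 / 4) with h1 | h1
  · refine final_step (p := 4 * (11 / 4 - σ) - 3 / 2) hν0.le (by linarith) hL0.le hQ₀ hQ ?_ ?_ ?_
    · have := hXa h1
      linarith
    · unfold Gf
      nlinarith [sq_nonneg (bR l - 1 - 2 * (11 / 4 - σ) - (2 * (11 / 4 - σ) - 3 / 4))]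
    · exact b_Fb hH hν hνH hρ (by linarith) (by linarith)
  · refine final_step (p := 2 * (11 / 4 - σ)) hν0.le (by linarith) hL0.le hQ₀ hQ ?_ ?_ ?_
    · have := hXb h1
      linarith
    · unfold Gf
      nlinarith [sq_nonneg (bR l - 1 - 2 * (11 / 4 - σ) - (2 * (11 / 4 - σ)))]
    · exact b_Fa hν hνH hρ (by linarith) hL0

/-- E.big.B: the outer inequality on the side `Im lam → -∞`. -/
theorem big_upper {l : ℕ} {w ρ : ℝ} {lam : ℂ} (hρ : 266 / 100 ≤ ρ)
    (h0 : 0 ≤ lam.re) (hν : 567 / 100 ≤ w - lam.im) (hν4 : l = 4 → 63 / 10 ≤ w - lam.im)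
    (hν5 : 5 ≤ l → 7 / 100 * (l + 11 / 2) ^ 2 ≤ w - lam.im) : BigIneq l w ρ lam := by
  rcases Nat.lt_or_ge l 3 with h | h
  · exact big_upper_small (by omega) hρ h0 hν
  · exact big_upper_large h hρ h0 hν hν4 hν5

end Vale.Agent.P139.H539
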