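import Vale.Agent.P139.H539.Big4

/-!
# Upper side for large angular degree, wider range
-/

noncomputable section

open MeasureTheory Set Filter Topology Complex ComplexConjugate

namespace Vale.Agent.P139.H539

open Vale.Agent.P139.KU (S J aE aE_re)
open Vale.Agent.P139.H772

section real

variable {H ν ρ : ℝ}

lemma c_ν (hH : 57 / 2 ≤ H) (hν : 6 / 100 * H ^ 2 ≤ ν) : 48 ≤ ν := by nlinarith

lemma c_E (hν : 48 ≤ ν) (hνH : 6 / 100 * H ^ 2 ≤ ν) (hρ : 266 / 100 ≤ ρ) :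
    H ^ 2 + 4 * ν ^ 2 ≤ 107 / 100 * (2 * ν + ρ) ^ 2 := by
  have h2 : H ^ 2 ≤ 50 / 3 * ν := by linarith
  have h3 : 50 / 3 * ν + 4 * ν ^ 2 ≤ 107 / 100 * (2 * ν + 266 / 100) ^ 2 := by nlinarith
  have h4 : (2 * ν + 266 / 100) ^ 2 ≤ (2 * ν + ρ) ^ 2 := by
    apply pow_le_pow_left₀ <;> linarith
  linarith

/-- all needed upper bounds of `H² + 4ν²` -/
lemma c_G (hν : 48 ≤ ν) (hνH : 6 / 100 * H ^ 2 ≤ ν) (hρ : 266 / 100 ≤ ρ) :
    H ^ 2 + 4 * ν ^ 2 ≤ 4 * ν * (739 / 1000 * (2 * ν + ρ)) := by nlinarith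

lemma c_X2 {e : ℝ} (hν : 48 ≤ ν) (hνH : 6 / 100 * H ^ 2 ≤ ν) (hρ : 266 / 100 ≤ ρ)
    (he : 0 ≤ e) :
    Gf H ν (-e) * (2 * e) ≤ 0 * ((2 * e) ^ 2 + (93 / 100 * (2 * ν + ρ)) ^ 2) +
      8 * ν * e * (93 / 100 * (2 * ν + ρ)) := by
  unfold Gf
  have h0 := c_G hν hνH hρ
  have hp : 0 ≤ ν * (2 * ν + ρ) := by
    apply mul_nonneg <;> linarith
  have h1 : H ^ 2 + 4 * ν ^ 2 - 4 * e ^ 2 ≤ 4 * ν * (93 / 100 * (2 * ν + ρ)) := by
    nlinarith [sq_nonneg e]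
  have h2 := mul_le_mul_of_nonneg_right h1 he
  simp only [neg_sq]
  linarith

lemma c_X1a {e : ℝ} (hν : 48 ≤ ν) (hνH : 6 / 100 * H ^ 2 ≤ ν) (hρ : 266 / 100 ≤ ρ)
    (he : 0 ≤ e) :
    Gf H ν (-e) * (2 * e) ≤ 1 / 2 * ((2 * e) ^ 2 + (849 / 1000 * (2 * ν + ρ)) ^ 2) +
      8 * ν * e * (849 / 1000 * (2 * ν + ρ)) := by
  unfold Gf
  have h0 := c_G hν hνH hρ
  have hp : 0 ≤ ν * (2 * ν + ρ) := by
    apply mul_nonneg <;> linarith
  have h1 : H ^ 2 + 4 * ν ^ 2 - 4 * e ^ 2 ≤ 4 * ν * (849 / 1000 * (2 * ν + ρ)) := by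
    nlinarith [sq_nonneg e]
  have h2 := mul_le_mul_of_nonneg_right h1 he
  simp only [neg_sq]
  have h3 : 0 ≤ 1 / 2 * ((2 * e) ^ 2 + (849 / 1000 * (2 * ν + ρ)) ^ 2) := by positivity
  linarith

lemma c_X1b {e : ℝ} (hν : 48 ≤ ν) (hνH : 6 / 100 * H ^ 2 ≤ ν) (hρ : 266 / 100 ≤ ρ)
    (he : 1 ≤ e) (he2 : e ≤ 7 / 4) :
    Gf H ν (-e) * (4 * e - 2) ≤ 1 / 2 * ((4 * e - 2) ^ 2 + (849 / 1000 * (2 * ν + ρ)) ^ 2) +
      8 * ν * e * (849 / 1000 * (2 * ν + ρ)) := by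
  unfold Gf
  have h2 : ν * e * (2 * ν) ≤ ν * e * (2 * ν + ρ) := by
    apply mul_le_mul_of_nonneg_left (by linarith) (by positivity)
  have h1 : (2 * ν) ^ 2 ≤ (2 * ν + ρ) ^ 2 := by
    apply pow_le_pow_left₀ <;> linarith
  have h3 : H ^ 2 * (4 * e - 2) ≤ 50 / 3 * ν * (4 * e - 2) := by
    apply mul_le_mul_of_nonneg_right (by linarith) (by linarith)
  have h5 : 50 / 3 * ν * (4 * e - 2) ≤ 50 / 3 / 48 * ν ^ 2 * (4 * e - 2) := by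
    apply mul_le_mul_of_nonneg_right _ (by linarith)
    nlinarith
  have h6 : 50 / 3 / 48 * (4 * e - 2) + 4 * (4 * e - 2) ≤
      1 / 2 * (849 / 1000) ^ 2 * 4 + 8 * 849 / 1000 * 2 * e := by linarith
  have h7 := mul_le_mul_of_nonneg_right h6 (sq_nonneg ν)
  have h8 : 0 ≤ e ^ 2 * (4 * e - 2) := mul_nonneg (sq_nonneg e) (by linarith)
  have h9 : 0 ≤ (4 * e - 2) ^ 2 := sq_nonneg _
  simp only [neg_sq]
  nlinarith

lemma c_Fa {e : ℝ} (hν : 48 ≤ ν) (hνH : 6 / 100 * H ^ 2 ≤ ν)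
    (hρ : 266 / 100 ≤ ρ) (he : 0 < e) (hL : 0 < H - 2 * e) :
    Gf H ν (-e) * (2 * e) < (H - 2 * e) * ((2 * e) ^ 2 + (739 / 1000 * (2 * ν + ρ)) ^ 2) +
      8 * ν * e * (739 / 1000 * (2 * ν + ρ)) := by
  unfold Gf
  have h1 := c_G hν hνH hρ
  have h2 : 0 < (2 * e) ^ 2 + (739 / 1000 * (2 * ν + ρ)) ^ 2 := by positivity
  have h3 := mul_pos hL h2
  have h4 := mul_le_mul_of_nonneg_right h1 he.le
  simp only [neg_sq]
  nlinarith [mul_pos he (mul_pos he he)]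

lemma c_Fb {e : ℝ} (hH : 57 / 2 ≤ H) (hν : 48 ≤ ν) (hνH : 6 / 100 * H ^ 2 ≤ ν)
    (hρ : 266 / 100 ≤ ρ) (he : 1 ≤ e) (he2 : e ≤ 11 / 4) :
    Gf H ν (-e) * (4 * e - 3 / 2) <
      (H - 2 * e) * ((4 * e - 3 / 2) ^ 2 + (739 / 1000 * (2 * ν + ρ)) ^ 2) +
      8 * ν * e * (739 / 1000 * (2 * ν + ρ)) := by
  unfold Gf
  have h0 : 0 ≤ (4 * e - 3 / 2) := by linarith
  have h1 : (2 * ν) ^ 2 ≤ (2 * ν + ρ) ^ 2 := by
    apply pow_le_pow_left₀ <;> linarith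
  have hL : 23 ≤ H - 2 * e := by linarith
  have h2 : 23 * ((739 / 1000) ^ 2 * (2 * ν) ^ 2) ≤
      (H - 2 * e) * ((4 * e - 3 / 2) ^ 2 + (739 / 1000 * (2 * ν + ρ)) ^ 2) := by
    have h3 : (739 / 1000) ^ 2 * (2 * ν) ^ 2 ≤
        (4 * e - 3 / 2) ^ 2 + (739 / 1000 * (2 * ν + ρ)) ^ 2 := by
      nlinarith [sq_nonneg (4 * e - 3 / 2)]
    have h4 : 0 ≤ (4 * e - 3 / 2) ^ 2 + (739 / 1000 * (2 * ν + ρ)) ^ 2 := by positivity
    calc 23 * ((739 / 1000) ^ 2 * (2 * ν) ^ 2) ≤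
        23 * ((4 * e - 3 / 2) ^ 2 + (739 / 1000 * (2 * ν + ρ)) ^ 2) := by linarith
      _ ≤ _ := mul_le_mul_of_nonneg_right hL h4
  have h5 : (H ^ 2 + 4 * ν ^ 2) * (4 * e - 3 / 2) ≤ (50 / 3 * ν + 4 * ν ^ 2) * (19 / 2) := by
    have h6 : H ^ 2 + 4 * ν ^ 2 ≤ 50 / 3 * ν + 4 * ν ^ 2 := by linarith
    have h7 : 4 * e - 3 / 2 ≤ 19 / 2 := by linarith
    have h8 : 0 ≤ H ^ 2 + 4 * ν ^ 2 := by positivity
    calc (H ^ 2 + 4 * ν ^ 2) * (4 * e - 3 / 2) ≤ (H ^ 2 + 4 * ν ^ 2) * (19 / 2) :=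
          mul_le_mul_of_nonneg_left h7 h8
      _ ≤ _ := mul_le_mul_of_nonneg_right h6 (by norm_num)
  have h9 : 0 ≤ e ^ 2 * (4 * e - 3 / 2) := mul_nonneg (sq_nonneg e) h0
  have h10 : 0 ≤ 8 * ν * e * (739 / 1000 * (2 * ν + ρ)) := by
    have : 0 ≤ ν * e * (2 * ν + ρ) := by positivity
    linarith
  simp only [neg_sq]
  nlinarith

end real

/-- Upper side, `l ≥ 23`, `ν ≥ 0.06 (l + 11/2)²`. -/
theorem big_upper_23 {l : ℕ} (hl : 23 ≤ l) {w ρ : ℝ} {lam : ℂ} (hρ : 266 / 100 ≤ ρ)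
    (h0 : 0 ≤ lam.re) (hν5 : 6 / 100 * (l + 11 / 2) ^ 2 ≤ w - lam.im) : BigIneq l w ρ lam := by
  by_cases h : 11 / 4 ≤ lam.re
  · exact bigIneq_of_re (by linarith) h
  push Not at h
  have hρ0 : 0 < ρ := by linarith
  have hl3 : (23 : ℝ) ≤ l := by exact_mod_cast hl
  set σ := lam.re with hσ
  set ν := w - lam.im with hνd
  have hHb : bR l - 1 = l + 11 / 2 := by unfold bR; ring
  have hH : 57 / 2 ≤ bR l - 1 := by rw [hHb]; linarith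
  have hνH : 6 / 100 * (bR l - 1) ^ 2 ≤ ν := by rw [hHb]; exact hν5
  have hν : 48 ≤ ν := c_ν hH hνH
  have hν0 : 0 < ν := by linarith
  have hN : 0 < 2 * ν + ρ := by positivity
  have hre : 2 * (aE l w lam).re = bR l - 1 + 2 * (σ - 11 / 4) := by
    rw [aE_re, hHb]; ring
  have hre0 : 0 ≤ (aE l w lam).re := by rw [aE_re]; linarith
  have him : (aE l w lam).im = -ν := aE_im' l w lam
  have G0 : ∀ e : ℝ, 0 < e → e ≤ 11 / 4 → 0 ≤ Gf (bR l - 1) ν (-e) := by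
    intro e h1 h2
    unfold Gf
    nlinarith [sq_nonneg (bR l - 1)]
  obtain ⟨X, Z, L, hQ, hXa, hXb⟩ := chain (a := aE l w lam) (b := bR l) (ρ := ρ) (σ := σ) (ν := ν)
    (δ := 107 / 100) (κ3 := 93 / 100) (κ2 := 849 / 1000) (κ1 := 739 / 1000) (t := 1 / 2) hρ0 hν0
    (by linarith) h0 hre him hre0
    (by norm_num) (by norm_num) (by norm_num) (by norm_num) (by norm_num)
    (c_E hν hνH hρ) (by norm_num) (by norm_num) (by norm_num) (by norm_num)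
    (fun e h1 h2 => G0 e h1 (by linarith))
    (fun e h1 h2 => c_X2 hν hνH hρ h1.le)
    (fun e h1 h2 => by
      have h3 : max 0 (e - 1) ≤ 3 / 4 := max_le (by norm_num) (by linarith)
      unfold Gf
      nlinarith)
    (fun e h1 h2 => by
      rcases le_total e 1 with h3 | h3
      · rw [max_eq_left (by linarith)]
        simpa using c_X1a hν hνH hρ h1.le
      · rw [max_eq_right (by linarith)]
        have := c_X1b hν hνH hρ h3 h2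
        rw [show 2 * (e + (e - 1)) = 4 * e - 2 by ring]
        exact this)
  have hQ₀ : 0 < 739 / 1000 * (2 * ν + ρ) := by positivity
  have hL : bR l - 1 - 2 * (11 / 4 - σ) = l + 2 * σ := by rw [hHb]; ring
  have hL0 : 0 < bR l - 1 - 2 * (11 / 4 - σ) := by rw [hL]; linarith
  refine flux_of_lev (e := 11 / 4 - σ) L (by linarith) hρ0 (by rw [hre]; ring) him ?_
  rcases lt_or_ge σ (7 / 4) with h1 | h1
  · refine final_step (p := 4 * (11 / 4 - σ) - 3 / 2) hν0.le (by linarith) hL0.le hQ₀ hQ ?_ ?_ ?_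
    · have := hXa h1
      linarith
    · unfold Gf
      nlinarith [sq_nonneg (bR l - 1 - 2 * (11 / 4 - σ) - (2 * (11 / 4 - σ) - 3 / 4))]
    · exact c_Fb hH hν hνH hρ (by linarith) (by linarith)
  · refine final_step (p := 2 * (11 / 4 - σ)) hν0.le (by linarith) hL0.le hQ₀ hQ ?_ ?_ ?_
    · have := hXb h1
      linarith
    · unfold Gf
      nlinarith [sq_nonneg (bR l - 1 - 2 * (11 / 4 - σ) - (2 * (11 / 4 - σ)))]
    · exact c_Fa hν hνH hρ (by linarith) hL0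

end Vale.Agent.P139.H539
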