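import Vale.Agent.P139.H772.EW4
import Vale.Agent.P139.H66.Phi

/-!
# Half steps `c → c + 1` at fixed `a`

`q a (c+1) = (a + c + 1) + iρ (c+1) / (q a c - iρ)`.  With `b = a + c + 1` real and
`X ≤ Re (q a c)`, `0 < X`: `b - ρ (‖c+1‖ + Im (c+1)) / (2X) ≤ Re (q a (c+1))`.
-/

noncomputable section

open MeasureTheory Set Filter Topology Complex ComplexConjugate

namespace Vale.Agent.P139.H539

open Vale.Agent.P139.KU (S J J_rec_c J_low aE aE_re)
open Vale.Agent.P139.H772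
open Vale.Agent.P139.H66 (q q_eq J_ne_zero re_q_ge rho_re_pos)

/-- Half step. -/
theorem half_step {a c : ℂ} (ha : 0 < a.re) {ρ : ℝ} (hρ : 0 < ρ) (h : J a c ρ ≠ 0)
    (hd : q a c ρ - I * ρ ≠ 0) :
    J a (c + 1) ρ ≠ 0 ∧ q a (c + 1) ρ = (a + c + 1) + I * ρ * (c + 1) / (q a c ρ - I * ρ) := by
  have hz := rho_re_pos hρ
  have ha1 : 0 < (a + 1).re := by simp; linarith
  have h1 := J_rec_c (c + 1) ha hz
  have h2 := J_rec_c (c + 1) ha1 hz
  have h3 := J_low c ha hz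
  have h4 := q_eq h
  rw [add_sub_cancel_right] at h1 h2
  rw [show a + 1 + 1 = a + 2 by ring] at h2
  have hI : I * I = -1 := Complex.I_mul_I
  have hρ' : (ρ : ℂ) ≠ 0 := by exact_mod_cast hρ.ne'
  have e1 : ρ * J a (c + 1) ρ = I * (q a c ρ - I * ρ) * J a c ρ := by
    linear_combination (ρ : ℂ) * h1 + I * h4 + ρ * J a c ρ * hI
  have e2 : ρ * J (a + 1) (c + 1) ρ = (a + (a + c + 1) * I / ρ * q a c ρ) * J a c ρ := by
    field_simp
    linear_combination (ρ : ℂ) ^ 2 * h2 - ρ * h3 + I * (a + c + 1) * h4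
  have hJ : J a (c + 1) ρ ≠ 0 := by
    intro h0
    rw [h0, mul_zero] at e1
    exact (mul_ne_zero (mul_ne_zero I_ne_zero hd) h) e1.symm
  refine ⟨hJ, ?_⟩
  have e3 : q a (c + 1) ρ = ρ * J (a + 1) (c + 1) ρ / J a (c + 1) ρ := rfl
  rw [e3, div_eq_iff hJ]
  have e4 : ((a + c + 1) + I * ρ * (c + 1) / (q a c ρ - I * ρ)) * J a (c + 1) ρ =
      ((a + c + 1) * (q a c ρ - I * ρ) + I * ρ * (c + 1)) * (I / ρ * J a c ρ) := by
    have e5 : J a (c + 1) ρ = I / ρ * (q a c ρ - I * ρ) * J a c ρ := by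
      field_simp
      linear_combination e1
    rw [e5]
    field_simp
  rw [e4, e2]
  field_simp
  linear_combination (a * ρ) * hI

/-- Real part of `w / y` for `Re y ≥ X > 0`. -/
lemma re_div_ge {w y : ℂ} {X : ℝ} (hX : 0 < X) (hy : X ≤ y.re) :
    (w.re - ‖w‖) / (2 * X) ≤ (w / y).re := by
  have hy0 : y ≠ 0 := by
    intro h; rw [h] at hy; simp at hy; linarith
  have hn : 0 < normSq y := Complex.normSq_pos.2 hy0
  -- `‖1/y - 1/(2X)‖ ≤ 1/(2X)`
  have key : ‖y⁻¹ - (((2 * X)⁻¹ : ℝ) : ℂ)‖ ≤ (2 * X)⁻¹ := by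
    have h2X : 0 ≤ (2 * X)⁻¹ := by positivity
    apply abs_le_of_sq_le_sq' _ h2X |>.2
    rw [← Complex.normSq_eq_norm_sq, Complex.normSq_apply]
    simp only [Complex.sub_re, Complex.sub_im, Complex.inv_re, Complex.inv_im, Complex.ofReal_re,
      Complex.ofReal_im, sub_zero]
    have e : (y.re / normSq y - (2 * X)⁻¹) * (y.re / normSq y - (2 * X)⁻¹) +
        -y.im / normSq y * (-y.im / normSq y) =
        ((2 * X)⁻¹) ^ 2 - (y.re / X - 1) / normSq y := by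
      have e1 : normSq y = y.re * y.re + y.im * y.im := Complex.normSq_apply y
      have hn' : normSq y ≠ 0 := hn.ne'
      field_simp
      rw [e1]
      ring
    rw [e]
    have h3 : 0 ≤ (y.re / X - 1) / normSq y := by
      apply div_nonneg _ hn.le
      rw [sub_nonneg, le_div_iff₀ hX]
      linarith
    linarith
  have e : w / y = w * (y⁻¹ - (((2 * X)⁻¹ : ℝ) : ℂ)) + w * (((2 * X)⁻¹ : ℝ) : ℂ) := by
    rw [div_eq_mul_inv]; ring
  rw [e, Complex.add_re, Complex.re_mul_ofReal]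
  have h4 : -(‖w‖ * (2 * X)⁻¹) ≤ (w * (y⁻¹ - (((2 * X)⁻¹ : ℝ) : ℂ))).re := by
    have h5 := Complex.abs_re_le_norm (w * (y⁻¹ - (((2 * X)⁻¹ : ℝ) : ℂ)))
    rw [norm_mul] at h5
    have h6 : ‖w‖ * ‖y⁻¹ - (((2 * X)⁻¹ : ℝ) : ℂ)‖ ≤ ‖w‖ * (2 * X)⁻¹ :=
      mul_le_mul_of_nonneg_left key (norm_nonneg _)
    have h7 := neg_le_of_abs_le h5
    linarith
  have e8 : (w.re - ‖w‖) / (2 * X) = w.re * (2 * X)⁻¹ - ‖w‖ * (2 * X)⁻¹ := by
    rw [div_eq_mul_inv]; ring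
  rw [e8]
  linarith

/-- One half step for the real part. -/
theorem half_re {a c : ℂ} {b : ℝ} (hb : a + c + 1 = (b : ℂ)) (ha : 0 < a.re) {ρ X : ℝ}
    (hρ : 0 < ρ) (h : J a c ρ ≠ 0) (hX : 0 < X) (hq : X ≤ (q a c ρ).re) :
    J a (c + 1) ρ ≠ 0 ∧ b - ρ * (‖c + 1‖ + (c + 1).im) / (2 * X) ≤ (q a (c + 1) ρ).re := by
  have hy : X ≤ (q a c ρ - I * ρ).re := by simpa using hq
  have hd : q a c ρ - I * ρ ≠ 0 := by
    intro h0; rw [h0] at hy; simp at hy; linarith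
  obtain ⟨h1, h2⟩ := half_step ha hρ h hd
  refine ⟨h1, ?_⟩
  rw [h2, hb, Complex.add_re, Complex.ofReal_re]
  have h3 := re_div_ge (w := I * ρ * (c + 1)) hX hy
  have e1 : (I * ρ * (c + 1)).re = -(ρ * (c + 1).im) := by
    rw [mul_assoc, Complex.I_mul_re, Complex.im_ofReal_mul]
  have e2 : ‖I * ρ * (c + 1)‖ = ρ * ‖c + 1‖ := by
    rw [norm_mul, norm_mul, Complex.norm_I, one_mul, Complex.norm_real, Real.norm_of_nonneg hρ.le]
  rw [e1, e2] at h3
  have e3 : (-(ρ * (c + 1).im) - ρ * ‖c + 1‖) / (2 * X) =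
      -(ρ * (‖c + 1‖ + (c + 1).im) / (2 * X)) := by ring
  rw [e3] at h3
  linarith

/-- Chain of half steps from Lemma RE. -/
theorem half_chain {a c : ℂ} {b : ℝ} (hb : a + c + 1 = (b : ℂ)) (ha : 0 < a.re)
    (hab : (b - 1) / 2 ≤ a.re) {ρ : ℝ} (hρ : 0 < ρ) (n : ℕ) (f F : ℕ → ℝ)
    (h0 : f 0 ≤ (b - 1) / 2) (hpos : ∀ j ≤ n, 0 < f j)
    (hF : ∀ j < n, ‖c + j + 1‖ + c.im ≤ F j)
    (hstep : ∀ j < n, f (j + 1) ≤ b + j - ρ * F j / (2 * f j)) :
    ∀ j ≤ n, J a (c + j) ρ ≠ 0 ∧ f j ≤ (q a (c + j) ρ).re := by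
  intro j
  induction j with
  | zero =>
    intro _
    simp only [Nat.cast_zero, add_zero]
    exact ⟨J_ne_zero hb ha hab hρ, h0.trans (re_q_ge hb ha hab hρ)⟩
  | succ j ih =>
    intro hj
    obtain ⟨h1, h2⟩ := ih (by omega)
    have hfj := hpos j (by omega)
    have hb' : a + (c + j) + 1 = ((b + j : ℝ) : ℂ) := by push_cast; rw [← hb]; ring
    obtain ⟨h3, h4⟩ := half_re hb' ha hρ h1 hfj h2
    rw [show c + ((j + 1 : ℕ) : ℂ) = c + j + 1 by push_cast; ring]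
    refine ⟨h3, ?_⟩
    have h5 := hstep j (by omega)
    have h6 := hF j (by omega)
    have e1 : (c + j + 1).im = c.im := by simp
    rw [e1] at h4
    have h7 : ρ * (‖c + j + 1‖ + c.im) / (2 * f j) ≤ ρ * F j / (2 * f j) := by
      apply div_le_div_of_nonneg_right _ (by positivity)
      exact mul_le_mul_of_nonneg_left h6 hρ.le
    linarith

/-- `BigIneq` from the ratio. -/
theorem bigIneq_of_q {l : ℕ} {w ρ : ℝ} {lam : ℂ} (hρ : 0 < ρ) (ha : 0 < (aE l w lam).re)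
    (hJ : J (aE l w lam) (bR l - aE l w lam - 1) ρ ≠ 0)
    (hq : 0 < (q (aE l w lam) (bR l - aE l w lam - 1) ρ).re) : BigIneq l w ρ lam := by
  obtain ⟨h1, h2⟩ := S_DS_eq (b := bR l) ha hρ
  have hG : Gamma (aE l w lam) ≠ 0 := Complex.Gamma_ne_zero_of_re_pos ha
  have hN : 0 < normSq (Gamma (aE l w lam)) := Complex.normSq_pos.2 hG
  have hN' : 0 < normSq (J (aE l w lam) (bR l - aE l w lam - 1) ρ) := Complex.normSq_pos.2 hJ
  unfold BigIneq
  rw [h1, h2]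
  have e : ρ * J (aE l w lam + 1) (bR l - aE l w lam - 1) ρ / Gamma (aE l w lam) *
      conj (J (aE l w lam) (bR l - aE l w lam - 1) ρ / Gamma (aE l w lam)) =
      q (aE l w lam) (bR l - aE l w lam - 1) ρ *
      ((normSq (J (aE l w lam) (bR l - aE l w lam - 1) ρ) / normSq (Gamma (aE l w lam)) : ℝ) : ℂ) := by
    rw [map_div₀]
    push_cast
    rw [← Complex.mul_conj, ← Complex.mul_conj, q_eq hJ]
    have hGc : conj (Gamma (aE l w lam)) ≠ 0 := by simpa using hG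
    field_simp
  rw [e, Complex.re_mul_ofReal]
  positivity

end Vale.Agent.P139.H539
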