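import Vale.Agent.P139.H539.Half1

/-!
# The lower side of the outer region by half steps
-/

noncomputable section

open MeasureTheory Set Filter Topology Complex ComplexConjugate

namespace Vale.Agent.P139.H539

open Vale.Agent.P139.KU (S J aE aE_re)
open Vale.Agent.P139.H772
open Vale.Agent.P139.H66 (q)

lemma aE_im2 (l : ℕ) (w : ℝ) (lam : ℂ) : (aE l w lam).im = -(w - lam.im) := by
  simp [aE]

/-- General form: a sequence of lower bounds for `n ≤ 6` half steps.  `u = (l + 11/2)/2 - n/2`. -/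
theorem big_of_seq {l : ℕ} {w ρ : ℝ} {lam : ℂ} (hρ : 0 < ρ) (h0 : 0 ≤ lam.re)
    (hl : 1 ≤ l) (f F : ℕ → ℝ → ℝ)
    (hf0 : ∀ u, f 0 u = u)
    (hmain : lam.re < 11 / 4 → ∀ n : ℕ, 1 ≤ n → n ≤ 6 → ∀ u : ℝ, u = ((l : ℝ) + 11 / 2) / 2 - n / 2 →
      (∀ j ≤ n, 0 < f j u) ∧
      (∀ j < n, ∀ γ : ℝ, 0 ≤ γ → γ ≤ u + j + 1 →
        Real.sqrt (γ ^ 2 + (w - lam.im) ^ 2) + (w - lam.im) ≤ F j u) ∧
      (∀ j < n, f (j + 1) u ≤ 2 * u + 1 + j - ρ * F j u / (2 * f j u))) :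
    BigIneq l w ρ lam := by
  by_cases h : 11 / 4 ≤ lam.re
  · exact bigIneq_of_re hρ h
  push Not at h
  have hl1 : (1 : ℝ) ≤ l := by exact_mod_cast hl
  have hare : (aE l w lam).re = lam.re + l / 2 := aE_re l w lam
  have ha : 0 < (aE l w lam).re := by rw [hare]; linarith
  -- number of half steps
  obtain ⟨n, hn1, hn6, hn, hn'⟩ : ∃ n : ℕ, 1 ≤ n ∧ n ≤ 6 ∧ 2 * (11 / 4 - lam.re) ≤ n ∧
      (n : ℝ) < 2 * (11 / 4 - lam.re) + 1 := by
    refine ⟨⌈2 * (11 / 4 - lam.re)⌉₊, ?_, ?_, Nat.le_ceil _, Nat.ceil_lt_add_one (by linarith)⟩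
    · exact Nat.one_le_ceil_iff.2 (by linarith)
    · apply Nat.ceil_le.2
      push_cast
      linarith
  set u : ℝ := ((l : ℝ) + 11 / 2) / 2 - n / 2 with hu
  obtain ⟨hpos, hF, hstep⟩ := hmain h n hn1 hn6 u hu
  set a := aE l w lam with had
  set c : ℂ := bR l - a - 1 - n with hc
  have hbR : bR l = 13 / 2 + l := rfl
  have hb : a + c + 1 = ((2 * u + 1 : ℝ) : ℂ) := by
    rw [hc, hu, hbR]; push_cast; ring
  have hab : (2 * u + 1 - 1) / 2 ≤ a.re := by
    rw [hare, hu]; linarith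
  have hcim : c.im = w - lam.im := by
    have := aE_im2 l w lam
    rw [hc]
    simp only [Complex.sub_im, Complex.ofReal_im, Complex.one_im, Complex.natCast_im]
    rw [had, this]
    ring
  have hcre : c.re = 2 * u - a.re := by
    have := congrArg Complex.re hb
    simp only [Complex.add_re, Complex.one_re, Complex.ofReal_re] at this
    linarith
  have hchain := half_chain hb ha hab hρ n (fun j => f j u) (fun j => F j u)
    (by rw [hf0]; linarith) hpos (by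
      intro j hj
      have hre : (c + j + 1).re = c.re + j + 1 := by simp
      have him : (c + j + 1).im = w - lam.im := by simp [hcim]
      have hnorm : ‖c + j + 1‖ = Real.sqrt ((c.re + j + 1) ^ 2 + (w - lam.im) ^ 2) := by
        rw [Complex.norm_eq_sqrt_sq_add_sq, hre, him]
      rw [hnorm, hcim]
      apply hF j hj
      · rw [hcre, hare, hu]
        have : (0 : ℝ) ≤ j := Nat.cast_nonneg j
        linarith
      · rw [hcre]; linarith) (by
      intro j hj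
      have := hstep j hj
      linarith) n le_rfl
  have hcn : c + n = bR l - a - 1 := by rw [hc]; ring
  rw [hcn] at hchain
  exact bigIneq_of_q hρ ha hchain.1 (lt_of_lt_of_le (hpos n le_rfl) hchain.2)

/-- (H1): `l ≥ 4`, `ν ≤ 0`. -/
theorem big_lower_H1 {l : ℕ} (hl : 4 ≤ l) {w ρ : ℝ} {lam : ℂ} (hρ0 : 0 < ρ) (hρ : ρ ≤ 267 / 100)
    (h0 : 0 ≤ lam.re) (hν : w - lam.im ≤ 0) : BigIneq l w ρ lam := by
  have hl4 : (4 : ℝ) ≤ l := by exact_mod_cast hl
  refine big_of_seq hρ0 h0 (by omega) (fun _ u => u) (fun j u => u + j + 1) (fun u => rfl) ?_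
  intro _ n hn1 hn6 u hu
  have hn : (n : ℝ) ≤ 6 := by exact_mod_cast hn6
  have hu1 : 7 / 4 ≤ u := by rw [hu]; linarith
  refine ⟨fun j _ => by linarith, ?_, ?_⟩
  · intro j hj γ hγ0 hγ
    have h1 : Real.sqrt (γ ^ 2 + (w - lam.im) ^ 2) ≤ γ - (w - lam.im) := by
      apply Real.sqrt_le_iff.2
      constructor
      · linarith
      · nlinarith
    linarith
  · intro j hj
    have hj0 : (0 : ℝ) ≤ j := Nat.cast_nonneg j
    have h1 : ρ * (u + j + 1) / (2 * u) ≤ u + j + 1 := by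
      rw [div_le_iff₀ (by linarith)]
      nlinarith
    linarith

/-- (H2): `1 ≤ l`, `ν ≤ -43/10`. -/
theorem big_lower_H2 {l : ℕ} (hl : 1 ≤ l) {w ρ : ℝ} {lam : ℂ} (hρ0 : 0 < ρ) (hρ : ρ ≤ 267 / 100)
    (h0 : 0 ≤ lam.re) (hν : w - lam.im ≤ -(43 / 10)) : BigIneq l w ρ lam := by
  have hl1 : (1 : ℝ) ≤ l := by exact_mod_cast hl
  refine big_of_seq hρ0 h0 hl (fun j u => u + j / 4) (fun j u => (u + j + 1) ^ 2 * (5 / 43))
    (fun u => by simp) ?_
  intro _ n hn1 hn6 u hu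
  have hn : (n : ℝ) ≤ 6 := by exact_mod_cast hn6
  have hu1 : 1 / 4 ≤ u := by rw [hu]; linarith
  refine ⟨fun j _ => by positivity, ?_, ?_⟩
  · intro j hj γ hγ0 hγ
    have h1 : Real.sqrt (γ ^ 2 + (w - lam.im) ^ 2) ≤ γ ^ 2 * (5 / 43) - (w - lam.im) := by
      apply Real.sqrt_le_iff.2
      constructor
      · have : 0 ≤ γ ^ 2 * (5 / 43) := by positivity
        linarith
      · nlinarith [sq_nonneg (γ ^ 2 * (5 / 43)), mul_nonneg (sq_nonneg γ) (sub_nonneg.2 hν)]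
    have h2 : γ ^ 2 ≤ (u + j + 1) ^ 2 := by
      apply pow_le_pow_left₀ hγ0 hγ
    linarith
  · intro j hj
    have hj5 : j ≤ 5 := by omega
    have hX : 0 < u + (j : ℝ) / 4 := by positivity
    have key : 267 / 100 * ((u + j + 1) ^ 2 * (5 / 43)) ≤
        (u + 1 + j - ((j : ℝ) + 1) / 4) * (2 * (u + j / 4)) := by
      have : j = 0 ∨ j = 1 ∨ j = 2 ∨ j = 3 ∨ j = 4 ∨ j = 5 := by omega
      rcases this with h | h | h | h | h | h <;> subst h <;> push_cast <;> nlinarith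
    have h1 : ρ * ((u + j + 1) ^ 2 * (5 / 43)) / (2 * (u + (j : ℝ) / 4)) ≤
        u + 1 + j - ((j : ℝ) + 1) / 4 := by
      rw [div_le_iff₀ (by linarith)]
      have h2 : ρ * ((u + j + 1) ^ 2 * (5 / 43)) ≤ 267 / 100 * ((u + j + 1) ^ 2 * (5 / 43)) :=
        mul_le_mul_of_nonneg_right hρ (by positivity)
      linarith
    push_cast
    linarith

end Vale.Agent.P139.H539
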